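import Vale.Agent.P207Z.Bun

/-!
# P207: operations on germs of projections
-/

set_option linter.all false

open Set Filter Topology Metric Asymptotics
open scoped ContDiff

noncomputable section

namespace Vale.Agent.P207Z

variable {V : Type} [NormedAddCommGroup V] [NormedSpace ℝ V] [FiniteDimensional ℝ V]
  {F G : Type} [NormedAddCommGroup F] [NormedSpace ℝ F] [FiniteDimensional ℝ F]
  [NormedAddCommGroup G] [NormedSpace ℝ G] [FiniteDimensional ℝ G]

namespace SSub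

/-- the maps which send `H` into `K` -/
def homSub (H : Submodule ℝ F) (K : Submodule ℝ G) : Submodule ℝ (F →L[ℝ] G) where
  carrier := {T | ∀ v ∈ H, T v ∈ K}
  add_mem' := fun h h' v hv => K.add_mem (h v hv) (h' v hv)
  zero_mem' := fun v _ => K.zero_mem
  smul_mem' := fun c T h v hv => K.smul_mem c (h v hv)

/-- the projection `T ↦ T - (1 - Q) T P` -/
def homPrj (P : F →L[ℝ] F) (Q : G →L[ℝ] G) : (F →L[ℝ] G) →L[ℝ] (F →L[ℝ] G) :=
  1 - (ContinuousLinearMap.compL ℝ F G G (1 - Q)) ∘L ((ContinuousLinearMap.compL ℝ F F G).flip P)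

end SSub

namespace OpB

open SSub

variable {k n : ℕ} {P P' : V → F →L[ℝ] F} {Q Q' : V → G →L[ℝ] G}

/-- germs of fields of projections -/
structure PG (k : ℕ) (P : V → F →L[ℝ] F) : Prop where
  cd : ContDiffAt ℝ k P 0
  id : ∀ᶠ q in 𝓝 (0 : V), P q * P q = P q

theorem pg (h : Prj k n P) : PG k P :=
  ⟨h.ckb.contDiffAt (mem_ball_self (rad_pos n)), h.ev_idem (mem_ball_self (rad_pos n))⟩

theorem PG.ct (h : PG k P) : ContinuousAt P 0 := h.cd.continuousAt

theorem PG.cd' (h : PG k P) : ContDiffAt ℝ k (cmp P) 0 := contDiffAt_const.sub h.cd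

theorem PG.ct' (h : PG k P) : ContinuousAt (cmp P) 0 := h.cd'.continuousAt

theorem PG.mono {r : ℕ} (h : PG k P) (hr : r ≤ k) : PG r P :=
  ⟨h.cd.of_le (by exact_mod_cast hr), h.id⟩

theorem cmp_congr (h : P =ᶠ[𝓝 0] P') : cmp P =ᶠ[𝓝 0] cmp P' :=
  h.mono fun _ e => congrArg (1 - ·) e

theorem mem_range {A : F →L[ℝ] F} (h : A * A = A) {v : F} : v ∈ A.range ↔ A v = v :=
  ⟨by rintro ⟨w, rfl⟩; exact congrArg (fun X : F →L[ℝ] F => X w) h, fun e => ⟨v, e⟩⟩

theorem ckB_cmp (h : CkB k n P) : CkB k (2 * (n + 1)) (cmp P) :=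
  (CkB.const 1 (ContinuousLinearMap.norm_id_le.trans (by
    push_cast
    linarith [Nat.cast_nonneg (α := ℝ) n]))).sub (h.mono le_rfl n.le_succ)

/-! ### homomorphisms -/

variable (F G) in
/-- the map `T ↦ a T b` -/
def sand : (G →L[ℝ] G) →L[ℝ] (F →L[ℝ] F) →L[ℝ] (F →L[ℝ] G) →L[ℝ] (F →L[ℝ] G) :=
  (ContinuousLinearMap.compL ℝ (F →L[ℝ] G) (F →L[ℝ] G) (F →L[ℝ] G)).bilinearComp
    (ContinuousLinearMap.compL ℝ F G G) (ContinuousLinearMap.compL ℝ F F G).flip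

theorem sand_apply (a : G →L[ℝ] G) (b : F →L[ℝ] F) (T : F →L[ℝ] G) (v : F) :
    sand F G a b T v = a (T (b v)) := rfl

theorem homPrj_eq (a : F →L[ℝ] F) (b : G →L[ℝ] G) : homPrj a b = 1 - sand F G (1 - b) a := rfl

theorem homPrj_apply (a : F →L[ℝ] F) (b : G →L[ℝ] G) (T : F →L[ℝ] G) (v : F) :
    homPrj a b T v = T v - (T (a v) - b (T (a v))) := rfl

theorem cmp_hom (q : V) : cmp (fun q => homPrj (P q) (Q q)) q = sand F G (cmp Q q) (P q) :=
  sub_sub_cancel _ _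

theorem homPrj_idem {a : F →L[ℝ] F} {b : G →L[ℝ] G} (ha : a * a = a) (hb : b * b = b) :
    homPrj a b * homPrj a b = homPrj a b := by
  refine IsIdempotentElem.one_sub (a := sand F G (1 - b) a) ?_
  change sand F G ((1 - b) * (1 - b)) (a * a) = _
  rw [ha, IsIdempotentElem.one_sub hb]

theorem homPrj_range {a : F →L[ℝ] F} {b : G →L[ℝ] G} (ha : a * a = a) (hb : b * b = b) :
    (homPrj a b).range = homSub a.range b.range := by
  ext T
  refine (mem_range (F := F →L[ℝ] G) (homPrj_idem ha hb)).trans ?_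
  constructor
  · intro h v hv
    have h1 := congrArg (fun X : F →L[ℝ] G => X v) h
    simp only [homPrj_apply, (mem_range ha).1 hv, sub_sub_cancel] at h1
    exact ⟨_, h1⟩
  · intro h
    ext v
    rw [homPrj_apply, (mem_range hb).1 (h (a v) ⟨v, rfl⟩), sub_self, sub_zero]

theorem hom_prj (k n : ℕ) : ∃ n' ≥ n, ∀ (P : V → F →L[ℝ] F) (Q : V → G →L[ℝ] G), Prj k n P →
    Prj k n Q → Prj k n' fun q => homPrj (P q) (Q q) := by
  obtain ⟨m, hm, h⟩ := ckB_bilin (V := V) (W := G →L[ℝ] G) (W' := F →L[ℝ] F)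
    (W'' := (F →L[ℝ] G) →L[ℝ] (F →L[ℝ] G)) (sand F G) k (2 * (n + 1))
  refine ⟨2 * (m + 1), by omega, fun P Q hP hQ => ⟨?_, fun q hq => ?_⟩⟩
  · exact ckB_cmp (h _ _ (ckB_cmp hQ.ckb) (hP.ckb.mono le_rfl (by omega)))
  · have h1 : q ∈ ball (0 : V) (rad n) := ball_subset_ball (rad_anti (by omega)) hq
    exact homPrj_idem (hP.idem q h1) (hQ.idem q h1)

theorem hom_dom (hP : PG k P) (hP' : PG k P') (hQ : PG k Q) (hQ' : PG k Q')
    (e : Dom k (cmp P') (cmp P)) (e' : Dom k (cmp Q) (cmp Q')) :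
    Dom k (cmp fun q => homPrj (P q) (Q q)) (cmp fun q => homPrj (P' q) (Q' q)) := by
  have c : ContinuousAt (fun q => sand F G (cmp Q q) (P q)) 0 :=
    ((sand F G).continuous.continuousAt.comp hQ.ct').clm_apply hP.ct
  refine (Dom.of_flat ?_).trans (Dom.left c (Dom.refl _))
  refine (((e'.flat_cmp hQ'.ct hQ'.id).bilin_left (sand F G) hP.ct).add
    ((e.flat_cmp hP.ct hP.id).bilin_right (sand F G) (hQ.ct'.clm_comp hQ'.ct'))).congr
    (Eventually.of_forall fun q => ?_)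
  ext T v
  simp only [cmp_hom]
  simp only [cmp, sand_apply, sub_apply, add_apply, ContinuousLinearMap.comp_apply,
    one_apply_eq_self, map_sub]
  abel

theorem hom_eqv (hP : PG k P) (hP' : PG k P') (hQ : PG k Q) (hQ' : PG k Q')
    (e : Eqv k (cmp P) (cmp P')) (e' : Eqv k (cmp Q) (cmp Q')) :
    Eqv k (cmp fun q => homPrj (P q) (Q q)) (cmp fun q => homPrj (P' q) (Q' q)) :=
  ⟨hom_dom hP hP' hQ hQ' e.2 e'.1, hom_dom hP' hP hQ' hQ e.1 e'.2⟩

theorem cd_bil {W W' W'' : Type} [NormedAddCommGroup W] [NormedSpace ℝ W] [NormedAddCommGroup W']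
    [NormedSpace ℝ W'] [NormedAddCommGroup W''] [NormedSpace ℝ W''] (B : W →L[ℝ] W' →L[ℝ] W'')
    (c : W) : ContDiff ℝ ∞ fun p : W' × W => B (c - p.2) p.1 :=
  (B.contDiff.comp (contDiff_const.sub contDiff_snd)).clm_apply contDiff_fst

theorem contDiff_hom :
    ContDiff ℝ ∞ fun p : (F →L[ℝ] F) × (G →L[ℝ] G) => homPrj p.1 p.2 :=
  contDiff_const.sub (cd_bil (W := G →L[ℝ] G) (W' := F →L[ℝ] F)
    (W'' := (F →L[ℝ] G) →L[ℝ] (F →L[ℝ] G)) (sand F G) 1)

/-! ### direct sums -/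

theorem prod_prj (k n : ℕ) : ∃ n' ≥ n, ∀ (P : V → F →L[ℝ] F) (Q : V → G →L[ℝ] G), Prj k n P →
    Prj k n Q → Prj k n' fun q => (P q).prodMap (Q q) := by
  obtain ⟨m, hm, h⟩ := ckB_clm (V := V) (ContinuousLinearMap.prodMapL ℝ F F G G) k n
  refine ⟨m, hm, fun P Q hP hQ => ⟨h _ (hP.ckb.prod hQ.ckb), fun q hq => ?_⟩⟩
  have h1 : q ∈ ball (0 : V) (rad n) := ball_subset_ball (rad_anti hm) hq
  change (P q * P q).prodMap (Q q * Q q) = _
  rw [hP.idem q h1, hQ.idem q h1]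

theorem prod_dom (e : Dom k (cmp P) (cmp P')) (e' : Dom k (cmp Q) (cmp Q')) :
    Dom k (cmp fun q => (P q).prodMap (Q q)) (cmp fun q => (P' q).prodMap (Q' q)) :=
  ((e.pull differentiableAt_id rfl (continuousAt_const (y := ContinuousLinearMap.fst ℝ F G))).trans
    (Dom.of_le 1 (Eventually.of_forall fun _ _ => by
      rw [one_mul]
      exact le_max_left _ _))).prod
  ((e'.pull differentiableAt_id rfl (continuousAt_const (y := ContinuousLinearMap.snd ℝ F G))).trans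
    (Dom.of_le 1 (Eventually.of_forall fun _ _ => by
      rw [one_mul]
      exact le_max_right _ _)))

theorem prod_range (a : F →L[ℝ] F) (b : G →L[ℝ] G) : (a.prodMap b).range = a.range.prod b.range :=
  LinearMap.range_prodMap _ _

/-! ### jets of order one -/

variable (V F G) in
/-- the first prolongation, as a function of the jet of order one -/
def jL : ((F →L[ℝ] G) × (V →L[ℝ] F →L[ℝ] G)) →L[ℝ] (F × (V →L[ℝ] F) →L[ℝ] G × (V →L[ℝ] G)) :=
  LinearMap.toContinuousLinearMap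
    { toFun := fun p => (p.1 ∘L ContinuousLinearMap.fst ℝ F (V →L[ℝ] F)).prod
        (p.2.flip ∘L ContinuousLinearMap.fst ℝ F (V →L[ℝ] F)
          + ContinuousLinearMap.compL ℝ V F G p.1 ∘L ContinuousLinearMap.snd ℝ F (V →L[ℝ] F))
      map_add' := fun p p' => ContinuousLinearMap.ext fun j => Prod.ext rfl
        (ContinuousLinearMap.ext fun w => add_add_add_comm (p.2 w j.1) (p'.2 w j.1)
          (p.1 (j.2 w)) (p'.1 (j.2 w)))
      map_smul' := fun c p => ContinuousLinearMap.ext fun j => Prod.ext rfl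
        (ContinuousLinearMap.ext fun w => (smul_add c (p.2 w j.1) (p.1 (j.2 w))).symm) }

theorem j1_eq (M : V → F →L[ℝ] G) : j1 M = fun q => jL V F G (M q, fderiv ℝ M q) := rfl

theorem j1_congr {M M' : V → F →L[ℝ] G} {q : V} (h : M =ᶠ[𝓝 q] M') : j1 M q = j1 M' q := by
  rw [j1_eq, j1_eq]
  dsimp only
  rw [h.fderiv_eq, h.eq_of_nhds]

theorem j1_cmp (P : V → F →L[ℝ] F) : j1 (cmp P) = cmp (j1 P) := by
  funext q
  have h : fderiv ℝ (cmp P) q = -fderiv ℝ P q := fderiv_const_sub _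
  refine ContinuousLinearMap.ext fun j => Prod.ext rfl (ContinuousLinearMap.ext fun w => ?_)
  change fderiv ℝ (cmp P) q w j.1 + (j.2 w - P q (j.2 w)) =
    j.2 w - (fderiv ℝ P q w j.1 + P q (j.2 w))
  rw [h, neg_apply, neg_apply]
  abel

theorem ev_diff {W : Type} [NormedAddCommGroup W] [NormedSpace ℝ W] {f : V → W} {z : V}
    (h : ContDiffAt ℝ (k + 1 : ℕ) f z) : ∀ᶠ q in 𝓝 z, DifferentiableAt ℝ f q :=
  (h.eventually (by simp)).mono fun _ hq => hq.differentiableAt (by simp)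

theorem cd_jet {W : Type} [NormedAddCommGroup W] [NormedSpace ℝ W] {f : V → W} {z : V}
    (h : ContDiffAt ℝ (k + 1 : ℕ) f z) : ContDiffAt ℝ k (fun q => (f q, fderiv ℝ f q)) z :=
  (h.of_le (by exact_mod_cast k.le_succ)).prodMk (h.fderiv_right (by exact_mod_cast le_rfl))

theorem flat_jet {W : Type} [NormedAddCommGroup W] [NormedSpace ℝ W] {f : V → W} {z : V}
    (h : Flat (k + 1) f z) (h' : ContDiffAt ℝ (k + 1 : ℕ) f z) :
    Flat k (fun q => (f q, fderiv ℝ f q)) z :=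
  IsLittleO.prod_left (h.mono k.le_succ) (h.fderiv h')

theorem j1_idem {q : V} (h : DifferentiableAt ℝ P q) (h' : ∀ᶠ q' in 𝓝 q, P q' * P q' = P q') :
    j1 P q * j1 P q = j1 P q := (j1_comp h h).symm.trans (j1_congr h')

theorem PG.j1 (h : PG (k + 1) P) : PG k (j1 P) := by
  have h1 := (cd_jet h.cd).continuousLinearMap_comp
    (G := F × (V →L[ℝ] F) →L[ℝ] F × (V →L[ℝ] F)) (jL V F F)
  exact ⟨h1, ((ev_diff h.cd).and h.id.eventually_nhds).mono fun _ hq => j1_idem hq.1 hq.2⟩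

theorem j1_prj (k n : ℕ) : ∃ n' ≥ n, ∀ P : V → F →L[ℝ] F, Prj (k + 1) n P → Prj k n' (j1 P) := by
  obtain ⟨m, hm, h⟩ := ckB_clm (V := V) (W := (F →L[ℝ] F) × (V →L[ℝ] F →L[ℝ] F))
    (W' := F × (V →L[ℝ] F) →L[ℝ] F × (V →L[ℝ] F)) (jL V F F) k n
  refine ⟨m, hm, fun P hP => ⟨h _ ((hP.ckb.mono k.le_succ le_rfl).prod hP.ckb.fderiv),
    fun q hq => ?_⟩⟩
  have h1 : q ∈ ball (0 : V) (rad n) := ball_subset_ball (rad_anti hm) hq
  exact j1_idem ((hP.ckb.contDiffAt h1).differentiableAt (by simp)) (hP.ev_idem h1)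

theorem j1_dom (hP : PG (k + 1) P) (hP' : PG (k + 1) P') (e : Dom (k + 1) (cmp P) (cmp P')) :
    Dom k (cmp (j1 P)) (cmp (j1 P')) := by
  refine (dom_cmp_iff hP.j1.ct' hP'.j1.ct hP'.j1.id).2
    (((flat_jet (e.flat_cmp hP'.ct hP'.id) (hP.cd'.clm_comp hP'.cd)).clm (jL V F F)).congr ?_)
  filter_upwards [ev_diff hP.cd', ev_diff hP'.cd] with q h1 h2
  rw [← j1_cmp]
  exact (j1_comp h1 h2).symm

theorem j1_eqv (hP : PG (k + 1) P) (hP' : PG (k + 1) P') (e : Eqv (k + 1) (cmp P) (cmp P')) :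
    Eqv k (cmp (j1 P)) (cmp (j1 P')) := ⟨j1_dom hP hP' e.1, j1_dom hP' hP e.2⟩

theorem j1_sec {s : V → F} (hP : PG (k + 1) P) (hs : ContDiffAt ℝ (k + 1 : ℕ) s 0)
    (h : Flat (k + 1) (fun q => cmp P q (s q)) 0) :
    Flat k (fun q => cmp (j1 P) q (s q, fderiv ℝ s q)) 0 := by
  refine (flat_jet h (hP.cd'.clm_apply hs)).congr ?_
  filter_upwards [ev_diff hP.cd', ev_diff hs] with q h1 h2
  rw [← j1_cmp]
  exact j1_jet h1 h2

end OpB

end Vale.Agent.P207Z
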